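import Mathlib.Algebra.AffineMonoid.UniqueSums
import Mathlib.Algebra.Category.ModuleCat.Differentials.Basic
import Mathlib.Algebra.Category.ModuleCat.Images
import Mathlib.Algebra.DualNumber
import Mathlib.Algebra.Module.StablyFree.Basic
import Mathlib.Algebra.MvPolynomial.Comap
import Mathlib.Algebra.MvPolynomial.Funext
import Mathlib.Algebra.Order.Ring.Star
import Mathlib.Analysis.Complex.Polynomial.Basic
import Mathlib.CategoryTheory.Sites.Types
import Mathlib.Computability.Reduce
import Mathlib.Data.Int.Star
import Mathlib.Data.Rat.Star
import Mathlib.FieldTheory.IsAlgClosed.Classification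
import Mathlib.GroupTheory.CosetCover
import Mathlib.LinearAlgebra.Dimension.OrzechProperty
import Mathlib.LinearAlgebra.Matrix.FiniteDimensional
import Mathlib.LinearAlgebra.Quotient.Pi
import Mathlib.NumberTheory.PrimeCounting
import Mathlib.Order.CompletePartialOrder
import Mathlib.RingTheory.AdicCompletion.Completeness
import Mathlib.RingTheory.AdicCompletion.Noetherian
import Mathlib.RingTheory.Depth.Rees
import Mathlib.RingTheory.Etale.Weakly
import Mathlib.RingTheory.Henselian
import Mathlib.RingTheory.Ideal.HasGoingUp
import Mathlib.RingTheory.KrullDimension.Regular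
import Mathlib.RingTheory.LocalProperties.Reduced
import Mathlib.RingTheory.MvPolynomial
import Mathlib.RingTheory.MvPolynomial.IrreducibleQuadratic
import Mathlib.RingTheory.MvPowerSeries.Derivative
import Mathlib.RingTheory.PicardGroup
import Mathlib.RingTheory.Regular.Free
import Mathlib.RingTheory.RegularLocalRing.Defs
import Mathlib.RingTheory.SimpleRing.Principal
import Mathlib.RingTheory.TotallySplit
import Mathlib.Tactic

/-! The part of Mathlib that the development of this folder uses. -/
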